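import Vale.Agent.P236K3.Bas
import Vale.Agent.P236JF.Defs

/-!
# P236JR / Crd : coordinates for an arbitrary set of monomials, masks modulo four
-/

noncomputable section

namespace Vale.Agent.P236JR

open MvPolynomial Vale.Agent.P236EL Vale.Agent.P236KE Vale.Agent.P236K2 Vale.Agent.P236K3
open Vale.Agent.P236JF

/-- exponent vectors -/
abbrev Mo : Type := ℕ →₀ ℕ

open Classical in
/-- coordinates of a polynomial -/
def cqm (S : Mo → Prop) (o : ℕ) : A →ₗ[K] V :=
  (basisMonomials ℕ K).constr K fun J => if S J then Pi.single (o + pl J) 1 else 0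

theorem crm_eq_cqm (S : ℕ → Prop) (o : ℕ) : crm S o = cqm (fun J => S (lenM J)) o := rfl

variable {S S' : Mo → Prop} {o : ℕ} {a : A}

open Classical in
theorem cqm_monomial (S : Mo → Prop) (o : ℕ) (J : Mo) (c : K) :
    cqm S o (monomial J c) = if S J then Pi.single (o + pl J) c else 0 := by
  have h : (monomial J c : A) = c • basisMonomials ℕ K J := by
    rw [coe_basisMonomials, smul_monomial, smul_eq_mul, mul_one]
  rw [h, map_smul, cqm, Module.Basis.constr_basis]
  split_ifs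
  · rw [← Pi.single_smul, smul_eq_mul, mul_one]
  · exact smul_zero _

open Classical in
theorem cqm_eq (S : Mo → Prop) (o : ℕ) (a : A) : cqm S o a =
    ∑ J ∈ a.support, if S J then Pi.single (o + pl J) (coeff J a) else 0 := by
  conv_lhs => rw [a.as_sum, map_sum]
  exact Finset.sum_congr rfl fun J _ => cqm_monomial S o J _

theorem cqm_congr (h : ∀ J, coeff J a ≠ 0 → (S J ↔ S' J)) : cqm S o a = cqm S' o a := by
  classical
  rw [cqm_eq, cqm_eq]
  exact Finset.sum_congr rfl fun J hJ => if_congr (h J (mem_support_iff.1 hJ)) rfl rfl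

theorem cqm_eq_zero (h : ∀ J, coeff J a ≠ 0 → ¬ S J) : cqm S o a = 0 := by
  rw [cqm_eq]
  exact Finset.sum_eq_zero fun J hJ => if_neg (h J (mem_support_iff.1 hJ))

theorem cqm_mul (S : Mo → Prop) (o : ℕ) (M : Mo) (a : A) :
    cqm S o (monomial M 1 * a) = sh (pl M) (cqm (fun J => S (M + J)) o a) := by
  induction a using MvPolynomial.induction_on' with
  | monomial J c =>
    rw [monomial_mul, one_mul, cqm_monomial, cqm_monomial, pl_add]
    split_ifs
    · rw [sh_single, add_comm (pl M), add_assoc]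
    · exact (map_zero _).symm
  | add a b ha hb => rw [mul_add, map_add, map_add, map_add, ha, hb]

theorem sh_cqm (s : ℕ) (S : Mo → Prop) (o : ℕ) (a : A) : sh s (cqm S o a) = cqm S (o + s) a := by
  induction a using MvPolynomial.induction_on' with
  | monomial J c =>
    rw [cqm_monomial, cqm_monomial]
    split_ifs
    · rw [sh_single, add_right_comm]
    · exact map_zero _
  | add a b ha hb => rw [map_add, map_add, map_add, ha, hb]

theorem cqm_or (h : ∀ J, coeff J a ≠ 0 → S J → ¬ S' J) :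
    cqm (fun J => S J ∨ S' J) o a = cqm S o a + cqm S' o a := by
  classical
  rw [cqm_eq, cqm_eq, cqm_eq, ← Finset.sum_add_distrib]
  refine Finset.sum_congr rfl fun J hJ => ?_
  by_cases h1 : S J
  · rw [if_pos (Or.inl h1), if_pos h1, if_neg (h J (mem_support_iff.1 hJ) h1), add_zero]
  · rw [if_neg h1, zero_add]
    by_cases h2 : S' J
    · rw [if_pos (Or.inr h2), if_pos h2]
    · rw [if_neg (not_or.2 ⟨h1, h2⟩), if_neg h2]

theorem cqm_ne {p : ℕ} (h : cqm S o a p ≠ 0) : ∃ J, coeff J a ≠ 0 ∧ S J ∧ p = o + pl J := by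
  rw [cqm_eq, Finset.sum_apply] at h
  obtain ⟨J, hJ, h1⟩ := Finset.exists_ne_zero_of_sum_ne_zero h
  split_ifs at h1 with h2
  · exact ⟨J, mem_support_iff.1 hJ, h2, by_contra fun h3 => h1 (Pi.single_eq_of_ne h3 _)⟩
  · exact absurd rfl h1

theorem cqm_at {J : Mo} (hJ : S J) (h : ∀ J', coeff J' a ≠ 0 → S J' → pl J' = pl J → J' = J) :
    cqm S o a (o + pl J) = coeff J a := by
  rw [cqm_eq, Finset.sum_apply, Finset.sum_eq_single J, if_pos hJ, Pi.single_eq_same]
  · intro J' h1 h2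
    split_ifs with h3
    · exact Pi.single_eq_of_ne (fun h4 => h2 (h J' (mem_support_iff.1 h1) h3 (by omega))) _
    · rfl
  · intro h1
    rw [notMem_support_iff.1 h1, Pi.single_zero, ite_self, Pi.zero_apply]

variable {G : Type} [Fintype G] {L : LD} {ix : G → ℕ}

variable (L ix) in
/-- coordinates -/
def cq (S : Mo → Prop) : (G → A) →ₗ[K] V :=
  ∑ w, (cqm S (L.pos (ix w))).comp (LinearMap.proj w)

theorem cr_eq_cq (S : ℕ → Prop) : cr L ix S = cq L ix fun J => S (lenM J) := rfl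

theorem cq_apply (S : Mo → Prop) (u : G → A) :
    cq L ix S u = ∑ w, cqm S (L.pos (ix w)) (u w) := by
  rw [cq, LinearMap.sum_apply]
  rfl

variable {T : ℕ} {u : G → A}

theorem cq_congr (h : ∀ w J, coeff J (u w) ≠ 0 → (S J ↔ S' J)) : cq L ix S u = cq L ix S' u := by
  rw [cq_apply, cq_apply]
  exact Finset.sum_congr rfl fun w _ => cqm_congr (h w)

theorem cq_eq_zero (h : ∀ w J, coeff J (u w) ≠ 0 → ¬ S J) : cq L ix S u = 0 := by
  rw [cq_apply]
  exact Finset.sum_eq_zero fun w _ => cqm_eq_zero (h w)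

theorem cq_or (h : ∀ w J, coeff J (u w) ≠ 0 → S J → ¬ S' J) :
    cq L ix (fun J => S J ∨ S' J) u = cq L ix S u + cq L ix S' u := by
  rw [cq_apply, cq_apply, cq_apply, ← Finset.sum_add_distrib]
  exact Finset.sum_congr rfl fun w _ => cqm_or (h w)

theorem cq_mul (S : Mo → Prop) (M : Mo) (u : G → A) :
    cq L ix S (fun w => monomial M 1 * u w) = sh (pl M) (cq L ix (fun J => S (M + J)) u) := by
  rw [cq_apply, cq_apply, map_sum]
  exact Finset.sum_congr rfl fun w _ => cqm_mul S _ M _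

theorem cq_single [DecidableEq G] (S : Mo → Prop) (w : G) (a : A) :
    cq L ix S (Pi.single w a) = cqm S (L.pos (ix w)) a := by
  rw [cq_apply, Finset.sum_eq_single w, Pi.single_eq_same]
  · intro w' _ h
    rw [Pi.single_eq_of_ne h, map_zero]
  · exact fun h => absurd (Finset.mem_univ w) h

theorem cq_bv (w : G) {J : Mo} (h : S J) :
    cq L ix S (bv w J) = Pi.single (L.pos (ix w) + pl J) 1 := by
  classical
  rw [bv, cq_single, cqm_monomial, if_pos h]

theorem cq_ne {p : ℕ} (h : cq L ix S u p ≠ 0) :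
    ∃ w J, coeff J (u w) ≠ 0 ∧ S J ∧ p = L.pos (ix w) + pl J := by
  rw [cq_apply, Finset.sum_apply] at h
  obtain ⟨w, -, h1⟩ := Finset.exists_ne_zero_of_sum_ne_zero h
  exact ⟨w, cqm_ne h1⟩

theorem cq_top (hL : L.Ok ix) (hT : T ≤ L.T) (hu : Hm L ix T u) {p : ℕ} (hp : L.N ≤ p) :
    cq L ix S u p = 0 := by_contra fun h => by
  obtain ⟨w, J, h1, -, h2⟩ := cq_ne h
  have h3 := hL.pl_le hT (hu w J h1)
  have h4 := hL.top _ (hL.lt w)
  omega

/-- masks -/
theorem mk_cq {m : ℕ} (h : ∀ w J, coeff J (u w) ≠ 0 →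
    (S' J ↔ S J ∧ m.testBit (L.pos (ix w) + pl J) = true)) :
    mk m (cq L ix S u) = cq L ix S' u := by
  classical
  rw [cq_apply, cq_apply, map_sum]
  refine Finset.sum_congr rfl fun w _ => ?_
  rw [cqm_eq, cqm_eq, map_sum]
  refine Finset.sum_congr rfl fun J hJ => ?_
  have h5 := h w J (mem_support_iff.1 hJ)
  by_cases h6 : S J
  · rw [if_pos h6]
    funext p
    rw [mk_apply]
    by_cases h7 : p = L.pos (ix w) + pl J
    · rw [h7]
      by_cases h8 : m.testBit (L.pos (ix w) + pl J) = true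
      · rw [if_pos h8, if_pos (h5.2 ⟨h6, h8⟩)]
      · rw [if_neg h8, if_neg fun h9 => h8 (h5.1 h9).2, Pi.zero_apply]
    · rw [Pi.single_eq_of_ne h7, ite_self]
      split_ifs
      · rw [Pi.single_eq_of_ne h7]
      · rfl
  · rw [if_neg h6, if_neg fun h9 => h6 (h5.1 h9).1, map_zero]

/-- at most one monomial of `S` in each chain -/
def One (S : Mo → Prop) : Prop := ∀ J J' : Mo, S J → S J' → J 2 = J' 2 → J 3 = J' 3 →
  J 0 + 4 * J 1 = J' 0 + 4 * J' 1 → lenM J = J 0 + J 1 + J 2 + J 3 →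
  lenM J' = J' 0 + J' 1 + J' 2 + J' 3 → J 1 = J' 1

theorem cq_at (hL : L.Ok ix) (hT : T ≤ L.T) (hu : Hm L ix T u) (hS : One S) {w : G} {J : Mo}
    (h1 : wtM J + L.dg (ix w) = T) (h2 : S J) :
    cq L ix S u (L.pos (ix w) + pl J) = coeff J (u w) := by
  have h3 := hL.hT
  rw [cq_apply, Finset.sum_apply, Finset.sum_eq_single w, cqm_at h2]
  · intro J' h4 h5 h6
    have h7 := hu w J' h4
    have h8 := wt_len (J := J) (by omega)
    have h9 := wt_len (J := J') (by omega)
    rw [pl, pl] at h6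
    have h10 := hS J J' h2 h5 (by omega) (by omega) (by omega) h8.2 h9.2
    rw [eq_mk4 (show wtM J < 121 by omega), eq_mk4 (show wtM J' < 121 by omega)]
    congr 1 <;> omega
  · intro w' _ h4
    by_contra h5
    obtain ⟨J', h6, -, h7⟩ := cqm_ne h5
    exact h4 (hL.inj (hL.disj _ (hL.lt _) _ (hL.lt _) _ (hL.pl_le hT (hu w' J' h6)) _
      (hL.pl_le hT h1) h7.symm))
  · exact fun h => absurd (Finset.mem_univ w) h

/-- a homogeneous vector with vanishing coordinates has no monomial in `S` -/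
theorem not_of_cq (hL : L.Ok ix) (hT : T ≤ L.T) (hu : Hm L ix T u) (hS : One S)
    (h : cq L ix S u = 0) (w : G) (J : Mo) (hJ : coeff J (u w) ≠ 0) : ¬ S J := fun h1 =>
  hJ (by rw [← cq_at hL hT hu hS (hu w J hJ) h1, h, Pi.zero_apply])

/-- the exponent of the first variable is less than `c` -/
def lo (c : ℕ) (J : Mo) : Prop := J 0 < c

theorem one_lo {c : ℕ} (hc : c ≤ 4) : One (lo c) := fun _ _ h1 h2 _ _ h3 _ _ => by
  rw [lo] at h1 h2
  omega

theorem One.mono (h : One S) (h' : ∀ J, S' J → S J) : One S' := fun J J' h1 h2 =>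
  h J J' (h' J h1) (h' J' h2)

/-- the window `I ^ a` modulo `I ^ n + v_1 ^ 3 I ^ a` -/
def wj (a n : ℕ) (J : Mo) : Prop := a ≤ lenM J ∧ lenM J < n ∧ (J 0 < 3 ∨ lenM J < a + 3)

theorem one_wj (a n : ℕ) : One (wj a n) := fun _ _ h1 h2 _ _ h3 _ _ => by
  rw [wj] at h1 h2
  omega

theorem mem_Jr {r : ℕ} : a ∈ Jr K r ↔ ∀ J, coeff J a ≠ 0 → r ≤ J 0 := by
  classical
  have h3 : ((3 : ℕ) : A) = 0 := by
    rw [← map_natCast (C : K →+* A), show ((3 : ℕ) : K) = 0 from rfl, map_zero]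
  rw [Jr, h3, Ideal.span_insert_zero, Ideal.mem_span_singleton, X_pow_eq_monomial]
  refine ⟨fun ⟨b, h⟩ J hJ => ?_, fun h => ?_⟩
  · rw [h, coeff_monomial_mul'] at hJ
    exact Finsupp.single_le_iff.1 (by_contra fun h1 => hJ (if_neg h1))
  · rw [a.as_sum]
    refine Finset.dvd_sum fun J hJ => ⟨monomial (J - Finsupp.single 0 r) (coeff J a), ?_⟩
    rw [monomial_mul, one_mul, add_tsub_cancel_of_le
      (Finsupp.single_le_iff.2 (h J (mem_support_iff.1 hJ)))]

/-! ### masks modulo four -/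

def c4b (L : LD) (i ih ρ : Nat) : Nat :=
  Nat.lor ih (Nat.shiftLeft (Nat.land (Nat.shiftLeft (nat_lit 117469191) (Nat.mul (nat_lit 3) ρ))
    (Nat.sub (Nat.shiftLeft (nat_lit 2) (Nat.mul (nat_lit 3)
      (Nat.div (Nat.sub L.T (L.dg i)) (nat_lit 13)))) (nat_lit 1))) (L.pos i))
def c4a (L : LD) (r i ih : Nat) : Nat :=
  force (Nat.mod (Nat.add r (Nat.mul (nat_lit 3) (L.dg i))) (nat_lit 4)) (c4b L i ih)
/-- the places with `dg i + e3` congruent to `r` modulo four -/
def c4 (L : LD) (r : Nat) : Nat := loop (c4a L r) L.n (nat_lit 0)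

theorem pat_bit : ∀ ρ < 4, ∀ j < 28, (117469191 <<< (3 * ρ)).testBit j = decide (j / 3 % 4 = ρ) := by
  decide +kernel

theorem c4_bit' (L : LD) (hT : L.T < 120) (r n p : ℕ) : (loop (c4a L r) n 0).testBit p = true ↔
    ∃ i < n, L.pos i ≤ p ∧ p - L.pos i ≤ L.sz i ∧ (p - L.pos i) / 3 % 4 = (r + 3 * L.dg i) % 4 := by
  induction n with
  | zero => simp [loop]
  | succ n ih =>
    change (loop (c4a L r) n 0 ||| ((117469191 <<< (3 * ((r + 3 * L.dg n) % 4))) &&&
      (2 <<< L.sz n - 1)) <<< L.pos n).testBit p = true ↔ _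
    rw [Nat.testBit_or, Bool.or_eq_true, ih, Nat.exists_lt_succ_right]
    refine or_congr_right ?_
    rw [Nat.testBit_shiftLeft, Nat.testBit_and, Nat.shiftLeft_eq 2, ← pow_succ',
      Nat.testBit_two_pow_sub_one]
    simp only [Bool.and_eq_true, decide_eq_true_eq, ge_iff_le]
    refine and_congr_right fun _ => ?_
    have h1 : L.sz n ≤ 27 := by rw [LD.sz]; omega
    constructor
    · rintro ⟨h2, h3⟩
      rw [pat_bit _ (Nat.mod_lt _ (by norm_num)) _ (by omega), decide_eq_true_iff] at h2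
      exact ⟨by omega, h2⟩
    · rintro ⟨h2, h3⟩
      rw [pat_bit _ (Nat.mod_lt _ (by norm_num)) _ (by omega), decide_eq_true_iff]
      exact ⟨h3, by omega⟩

omit [Fintype G] in
theorem c4_bit (hL : L.Ok ix) {i j : ℕ} (hi : i < L.n) (hj : j ≤ L.sz i) (r : ℕ) :
    (c4 L r).testBit (L.pos i + j) = true ↔ (L.dg i + j / 3) % 4 = r % 4 := by
  refine (c4_bit' L hL.hT r L.n _).trans ⟨fun ⟨i', h1, h2, h3, h4⟩ => ?_, fun h =>
    ⟨i, hi, by omega, by omega, by rw [Nat.add_sub_cancel_left]; omega⟩⟩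
  obtain rfl := hL.disj i hi i' h1 j hj _ h3 (by omega)
  rw [Nat.add_sub_cancel_left] at h4
  omega

omit [Fintype G] in
/-- in weight `T` the mask `c4 L r` selects the exponents of `v_1` congruent to `T - r` -/
theorem c4_mon (hL : L.Ok ix) (hT : T ≤ L.T) {w : G} {J : Mo} (h : wtM J + L.dg (ix w) = T)
    (r : ℕ) : (c4 L r).testBit (L.pos (ix w) + pl J) = true ↔ (J 0 + r) % 4 = T % 4 := by
  have h1 := hL.hT
  have h2 := (wt_len (J := J) (by omega)).1
  rw [c4_bit hL (hL.lt w) (hL.pl_le hT h), pl, show (3 * J 2 + J 3) / 3 = J 2 by omega, ← h, h2]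
  generalize L.dg (ix w) = d
  omega

def mv1 (L : LD) (r r' : Nat) : Nat := Nat.lor (c4 L r) (c4 L r')
/-- the mask for the product with `v_1 ^ (a + 1)` -/
def mv (L : LD) (a r : Nat) : Nat :=
  Nat.rec (motive := fun _ => Nat)
    (force (Nat.mod (Nat.add r (nat_lit 3)) (nat_lit 4)) (mv1 L r)) (fun _ _ => c4 L r) a
def mx1 (L : LD) (a : Nat) (x : P) (r : Nat) : P := P.and x (mv L a r)
/-- the product with `v_1 ^ a` in weight `W` -/
def mx (L : LD) (a W : Nat) (x : P) : P :=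
  Nat.rec (motive := fun _ => P) x (fun a _ => force (Nat.mod W (nat_lit 4)) (mx1 L a x)) a

theorem mx_R (hL : L.Ok ix) (hT : T ≤ L.T) (hu : Hm L ix T u) {a W : ℕ} (ha : a < 3)
    (hW : W % 4 = T % 4) {x : P} (hx : x.R (cq L ix (lo 3) u)) :
    (mx L a W x).R (cq L ix (lo (3 - a)) u) := by
  rcases a with _ | _ | _ | a
  · exact hx
  · rw [← mk_cq (S := lo 3) (m := c4 L (W % 4) ||| c4 L ((W % 4 + 3) % 4)) fun w J hJ => by
      rw [Nat.testBit_or, Bool.or_eq_true, c4_mon hL hT (hu w J hJ), c4_mon hL hT (hu w J hJ),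
        lo, lo]
      omega]
    exact hx.and _
  · rw [← mk_cq (S := lo 3) (m := c4 L (W % 4)) fun w J hJ => by
      rw [c4_mon hL hT (hu w J hJ), lo, lo]
      omega]
    exact hx.and _
  · omega

end Vale.Agent.P236JR

end
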