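import Vale.Agent.P236JK.Eng
import Mathlib.Algebra.BigOperators.Intervals
import Mathlib.Algebra.BigOperators.Ring.Finset
import Mathlib.Tactic.Ring
import Mathlib.Tactic.Linarith

/-!
# P236JR / Bit : bits of products with repeated patterns
-/

noncomputable section

namespace Vale.Agent.P236JR

open Vale.Agent.P236K3 Vale.Agent.P236JK
open Vale.Agent.P236KE (repD repN)

theorem add_eq_or {a b : ℕ} (h : ∀ i, a.testBit i = true → b.testBit i = false) :
    a + b = a ||| b := by
  induction a using Nat.binaryRec generalizing b with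
  | zero => simp
  | bit c a ih =>
    induction b using Nat.binaryRec with
    | zero => simp
    | bit d b _ =>
      have h0 := h 0
      rw [Nat.testBit_bit_zero, Nat.testBit_bit_zero] at h0
      rw [Nat.lor_bit, ← ih fun i hi => by simpa [Nat.testBit_bit_succ] using h (i + 1) (by
        rwa [Nat.testBit_bit_succ])]
      cases c <;> cases d <;> simp only [Nat.bit_val, Bool.toNat_false, Bool.toNat_true,
        Bool.or_false, Bool.or_true] <;> first | omega | exact absurd (h0 rfl) (by decide)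

/-- the repeated pattern as a sum -/
def rp (s n : ℕ) : ℕ := ∑ k ∈ Finset.range n, 2 ^ (s * k)

theorem rp_succ (s n : ℕ) : rp s (n + 1) = rp s n + 2 ^ (s * n) := Finset.sum_range_succ _ n

theorem rp_add (s m n : ℕ) : rp s (m + n) = rp s m + 2 ^ (s * m) * rp s n := by
  rw [rp, Finset.sum_range_add, rp, rp, Finset.mul_sum]
  exact congrArg _ (Finset.sum_congr rfl fun k _ => by rw [mul_add, pow_add])

theorem rp_lt {s : ℕ} (hs : 0 < s) (n : ℕ) : rp s n < 2 ^ (s * n) := by
  induction n with
  | zero => simp [rp]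
  | succ n ih =>
    have h : 2 ^ (s * n + 1) ≤ 2 ^ (s * (n + 1)) := Nat.pow_le_pow_right two_pos (by
      rw [mul_add]; omega)
    rw [rp_succ]
    omega

theorem repD_eq (s m : ℕ) : repD s m = rp s (2 ^ m) := by
  induction m with
  | zero => simp [repD, rp]
  | succ m ih =>
    change repD s m + repD s m <<< (s <<< m) = _
    rw [pow_succ, mul_two, rp_add, ih, Nat.shiftLeft_eq, Nat.shiftLeft_eq, mul_comm]

theorem repN_eq {s : ℕ} (hs : 0 < s) (n : ℕ) : repN s n = rp s n := by
  change repD s (n.log2 + 1) >>> (s * (1 <<< (n.log2 + 1) - n)) = _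
  obtain ⟨e, he⟩ := Nat.exists_eq_add_of_le (Nat.lt_log2_self (n := n)).le
  rw [repD_eq, Nat.one_shiftLeft, he, Nat.add_sub_cancel_left, add_comm, rp_add,
    Nat.shiftRight_eq_div_pow, Nat.add_mul_div_left _ _ (Nat.two_pow_pos _),
    Nat.div_eq_of_lt (rp_lt hs e), zero_add]

theorem ones_eq (n : ℕ) : ones n = 2 ^ n - 1 := congrArg (· - 1) (Nat.one_shiftLeft n)

theorem ones_bit (n i : ℕ) : (ones n).testBit i = decide (i < n) := by
  rw [ones_eq, Nat.testBit_two_pow_sub_one]

theorem ones_rp (n : ℕ) : ones n = rp 1 n := by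
  rw [ones_eq]
  induction n with
  | zero => rfl
  | succ n ih =>
    have := Nat.two_pow_pos n
    rw [rp_succ, ← ih, one_mul]
    omega

/-- **products without carries** -/
theorem mul_rp_bit {x s n : ℕ} (h : ∀ i j k l, x.testBit i = true → x.testBit j = true → k < l →
    l < n → i + s * k ≠ j + s * l) (p : ℕ) : (x * rp s n).testBit p = true ↔
      ∃ k < n, ∃ i, x.testBit i = true ∧ p = i + s * k := by
  induction n generalizing p with
  | zero => simp [rp]
  | succ n ih =>
    replace ih := ih fun i j k l h1 h2 h3 h4 => h i j k l h1 h2 h3 (by omega)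
    have h1 : ∀ p, (x * 2 ^ (s * n)).testBit p = true ↔ ∃ i, x.testBit i = true ∧ p = i + s * n :=
      fun p => by
        rw [Nat.testBit_mul_two_pow, Bool.and_eq_true, decide_eq_true_iff]
        exact ⟨fun h => ⟨_, h.2, by omega⟩, fun ⟨i, h1, h2⟩ => by
          rw [h2, Nat.add_sub_cancel]; exact ⟨by omega, h1⟩⟩
    rw [rp_succ, mul_add, add_eq_or, Nat.testBit_or, Bool.or_eq_true, ih, h1,
      Nat.exists_lt_succ_right]
    intro q hq
    obtain ⟨k, hk, i, h2, h3⟩ := (ih q).1 hq
    rw [← Bool.not_eq_true, h1]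
    rintro ⟨j, h4, h5⟩
    exact h i j k n h2 h4 hk n.lt_succ_self (h3.symm.trans h5)

theorem blk_inj {N a b c d : ℕ} (ha : a < N) (hb : b < N) (h : a + N * c = b + N * d) :
    a = b ∧ c = d := by
  have h1 := congrArg (· % N) h
  simp only [Nat.add_mul_mod_self_left, Nat.mod_eq_of_lt ha, Nat.mod_eq_of_lt hb] at h1
  subst h1
  exact ⟨rfl, Nat.eq_of_mul_eq_mul_left (by omega) (Nat.add_left_cancel h)⟩

theorem lt_mul_of {s n k j : ℕ} (hk : k < n) (hj : j < s) : j + s * k < s * n := by
  have h := Nat.mul_le_mul_left s (Nat.succ_le_of_lt hk)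
  rw [Nat.mul_succ] at h
  omega

/-- a number with bits in the first `s` places of each block of length `s * n`, repeated -/
theorem mul_rp_blk {x s n : ℕ} (h : ∀ i, x.testBit i = true → i % (s * n) < s) {B k j : ℕ}
    (hk : k < n) (hj : j < s) :
    (x * rp s n).testBit (j + s * k + s * n * B) = x.testBit (j + s * n * B) := by
  have h0 : ∀ i k, x.testBit i = true → k < n → i % (s * n) + s * k < s * n ∧
      i + s * k = i % (s * n) + s * k + s * n * (i / (s * n)) := fun i k hi hk =>
    ⟨lt_mul_of hk (h i hi), by rw [add_right_comm, Nat.mod_add_div]⟩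
  rw [Bool.eq_iff_iff, mul_rp_bit fun i i' k l h1 h2 h3 h4 h5 => ?_]
  · refine ⟨fun ⟨l, hl, i, h1, h2⟩ => ?_, fun h1 => ⟨k, hk, _, h1, by ring⟩⟩
    rw [(h0 i l h1 hl).2] at h2
    obtain ⟨h3, h4⟩ := blk_inj (lt_mul_of hk hj) (h0 i l h1 hl).1 h2
    rwa [(blk_inj hj (h i h1) h3).1, h4, Nat.mod_add_div]
  · rw [(h0 i k h1 (by omega)).2, (h0 i' l h2 h4).2] at h5
    have h6 := (blk_inj (h i h1) (h i' h2) (blk_inj (h0 i k h1 (by omega)).1 (h0 i' l h2 h4).1
      h5).1).2
    omega

/-- a short number, repeated -/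
theorem mul_rp_low {x s n : ℕ} (h : ∀ i, x.testBit i = true → i < s) (k : ℕ) {j : ℕ}
    (hj : j < s) : (x * rp s n).testBit (j + s * k) = (decide (k < n) && x.testBit j) := by
  rw [Bool.eq_iff_iff, mul_rp_bit fun i i' k l h1 h2 h3 _ h5 => by
    have := (blk_inj (h i h1) (h i' h2) h5).2; omega, Bool.and_eq_true, decide_eq_true_iff]
  refine ⟨fun ⟨l, hl, i, h1, h2⟩ => ?_, fun h1 => ⟨k, h1.1, j, h1.2, rfl⟩⟩
  obtain ⟨rfl, rfl⟩ := blk_inj hj (h i h1) h2
  exact ⟨hl, h1⟩

theorem rp_bit {s : ℕ} (n k : ℕ) {j : ℕ} (hj : j < s) :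
    (rp s n).testBit (j + s * k) = (decide (k < n) && decide (j = 0)) := by
  rw [← one_mul (rp s n), mul_rp_low (fun i hi => by
    rw [← pow_zero 2, Nat.testBit_two_pow, decide_eq_true_iff] at hi; omega) k hj,
    ← pow_zero 2, Nat.testBit_two_pow]
  exact congrArg _ (decide_eq_decide.2 eq_comm)

theorem rp_bit' {s n i : ℕ} (hs : 0 < s) :
    (rp s n).testBit i = (decide (i / s < n) && decide (i % s = 0)) := by
  rw [← rp_bit n _ (Nat.mod_lt i hs), Nat.mod_add_div]

/-- a number with bits at the multiples of `s`, filled -/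
theorem mul_ones {x s : ℕ} (h : ∀ i, x.testBit i = true → i % s = 0) (k : ℕ) {j : ℕ}
    (hj : j < s) : (x * ones s).testBit (j + s * k) = x.testBit (s * k) := by
  have h1 := mul_rp_blk (x := x) (s := 1) (n := s) (fun i hi => by rw [one_mul, h i hi]; omega)
    (B := k) hj Nat.one_pos
  rwa [one_mul, one_mul, zero_add, zero_add, ← ones_rp] at h1

/-- spreading of the bits -/
theorem spread {x s n : ℕ} (hn : n < s) (h : ∀ i, x.testBit i = true → i < n) (k : ℕ) {j : ℕ}
    (hj : j < s) : ((x * rp (s - 1) n) &&& rp s n).testBit (j + s * k) =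
      (decide (k < n) && decide (j = 0) && x.testBit k) := by
  rw [Nat.testBit_and, rp_bit n k hj, Bool.and_comm]
  by_cases h1 : k < n
  · rcases j with _ | j
    · obtain ⟨s, rfl⟩ := Nat.exists_eq_add_one_of_ne_zero (show s ≠ 0 by omega)
      rw [show 0 + (s + 1) * k = k + s * k by ring, Nat.add_sub_cancel,
        mul_rp_low (fun i hi => by have := h i hi; omega) k (by omega)]
      simp [h1]
    · simp
  · simp [h1]

variable (p : Pm)

theorem mb_eq : mb p = p.nb * p.bb := rfl
theorem blk_eq : blk p = mb p * p.nw := mul_comm _ _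

variable {p}

theorem repM_bit (h : 0 < p.nw) (B : ℕ) {j : ℕ} (hj : j < blk p) :
    (repM p).testBit (j + blk p * B) = (decide (B ≤ top p 0) && decide (j < mb p)) := by
  change (ones (mb p) * repN (blk p) (top p 0 + 1)).testBit _ = _
  have h1 := Nat.le_mul_of_pos_right (mb p) h
  rw [repN_eq (by omega), mul_rp_low (fun i hi => by
    rw [ones_bit, decide_eq_true_iff] at hi; rw [blk_eq]; omega) B hj, ones_bit]
  simp only [Nat.lt_succ_iff]

/-- the bits of `x`, one for each lower generator, fill the blocks -/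
theorem fil_bit (h : p.nw < mb p) {x : ℕ} (hx : ∀ i, x.testBit i = true → i < p.nw) (B : ℕ)
    {w j : ℕ} (hw : w < p.nw) (hj : j < mb p) : (fil p x).testBit (j + mb p * w + blk p * B) =
      (decide (B ≤ top p 0) && x.testBit w) := by
  change (((x * repN (mb p - 1) p.nw) &&& repN (mb p) p.nw) *
    (ones (mb p) * repN (blk p) (top p 0 + 1))).testBit _ = _
  have h0 := lt_mul_of hw hj
  have h1 : ∀ k, ∀ j < mb p, (((x * rp (mb p - 1) p.nw) &&& rp (mb p) p.nw) * ones (mb p)).testBit
      (j + mb p * k) = (decide (k < p.nw) && x.testBit k) := fun k j hj => by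
    rw [mul_ones (fun i hi => ?_) k hj, ← zero_add (mb p * k), spread h hx k (by omega)]
    · simp
    · rw [← Nat.mod_add_div i (mb p), spread h hx _ (Nat.mod_lt _ (by omega))] at hi
      simp only [Bool.and_eq_true, decide_eq_true_eq] at hi
      exact hi.1.2
  rw [repN_eq (by omega), repN_eq (by omega), repN_eq (by rw [blk_eq]; omega), ← mul_assoc,
    mul_rp_low (fun i hi => ?_) B (by rwa [blk_eq]), h1 w j hj]
  · simp [hw]
  · rw [← Nat.mod_add_div i (mb p), h1 _ _ (Nat.mod_lt _ (by omega))] at hi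
    simp only [Bool.and_eq_true, decide_eq_true_eq] at hi
    rw [← Nat.mod_add_div i (mb p), blk_eq]
    exact lt_mul_of hi.1 (Nat.mod_lt _ (by omega))

/-- the first row of each block is repeated for every lower generator -/
theorem rep_bit (x B : ℕ) {w j : ℕ} (hw : w < p.nw) (hj : j < mb p) :
    ((x &&& repM p) * repW p).testBit (j + mb p * w + blk p * B) =
      (decide (B ≤ top p 0) && x.testBit (j + blk p * B)) := by
  change ((x &&& repM p) * repN (mb p) p.nw).testBit _ = _
  have h0 := lt_mul_of hw hj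
  rw [repN_eq (by omega), blk_eq, mul_rp_blk (fun i hi => ?_) hw hj, ← blk_eq, Nat.testBit_and,
    repM_bit (by omega) B (by rw [blk_eq]; omega), decide_eq_true hj, Bool.and_true, Bool.and_comm]
  rw [Nat.testBit_and, ← Nat.mod_add_div i (blk p), repM_bit (by omega) _
    (Nat.mod_lt _ (by rw [blk_eq]; omega))] at hi
  simp only [Bool.and_eq_true, decide_eq_true_eq] at hi
  exact blk_eq p ▸ hi.2.2

theorem colM_bit (k : ℕ) {j : ℕ} (hj : j < p.bb) : (colM p).testBit (j + p.bb * k) =
    (decide (k < p.nb * p.nw * (top p 0 + 1)) && decide (j = 0)) := by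
  change (repN p.bb _).testBit _ = _
  rw [repN_eq (by omega), rp_bit _ k hj]
  rfl

/-! ### vectors -/

variable {x y : P} {v w : V}

theorem shr_R (h : x.R v) (s : ℕ) : (shr x s).R fun q => v (s + q) := fun q => by
  change (x.a >>> s).testBit q = _ ∧ (x.b >>> s).testBit q = _
  rw [Nat.testBit_shiftRight, Nat.testBit_shiftRight]
  exact h _

theorem pmul_R (h : x.R v) (h' : y.R w) : (pmul x y).R (v * w) := fun q => by
  change ((x.a &&& y.a) ||| (x.b &&& y.b)).testBit q = _ ∧
    ((x.a &&& y.b) ||| (x.b &&& y.a)).testBit q = _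
  simp only [Nat.testBit_or, Nat.testBit_and, (h q).1, (h q).2, (h' q).1, (h' q).2, Pi.mul_apply]
  generalize v q = c
  generalize w q = d
  revert c d
  decide

/-- the value of two bits -/
def bv2 (a b : Bool) : ZMod 3 := if a then 1 else if b then 2 else 0

theorem nrm_R (a b : ℕ) : (nrm a b).R fun q => bv2 (a.testBit q) (b.testBit q) := fun q => by
  change a.testBit q = is1 (bv2 _ _) ∧ (b ^^^ (a &&& b)).testBit q = is2 (bv2 _ _)
  rw [Nat.testBit_xor, Nat.testBit_and]
  cases a.testBit q <;> cases b.testBit q <;> decide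

theorem bv2_R (h : x.R v) (q : ℕ) : bv2 (x.a.testBit q) (x.b.testBit q) = v q := by
  rw [(h q).1, (h q).2]
  generalize v q = c
  revert c
  decide

/-- a pair with disjoint bits represents a vector -/
theorem R_of_disj (h : ∀ q, x.a.testBit q = true → x.b.testBit q = false) :
    x.R fun q => bv2 (x.a.testBit q) (x.b.testBit q) := fun q => by
  have h1 := h q
  revert h1
  change _ → x.a.testBit q = is1 (bv2 _ _) ∧ x.b.testBit q = is2 (bv2 _ _)
  cases x.a.testBit q <;> cases x.b.testBit q <;> decide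

theorem R_disj (h : x.R v) (q : ℕ) (h1 : x.a.testBit q = true) : x.b.testBit q = false := by
  rw [(h q).1] at h1
  rw [(h q).2]
  generalize v q = c at h1 ⊢
  revert c
  decide

end Vale.Agent.P236JR

end
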