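import Vale.Agent.P236JR.Bit
import Vale.Agent.P236JI.Rep

/-!
# P236JR / Acc : the collected values and the checks
-/

noncomputable section

namespace Vale.Agent.P236JR

open Vale.Agent.P236K3 Vale.Agent.P236JK Vale.Agent.P236JK.Ini
open Vale.Agent.P236KE (Q4 wt4 byte)

variable {p : Pm} {w b dw db i : ℕ} {x : P} {c : ZMod 3} {S : Q4 → Prop}

theorem ite'_eq {α : Type} (c : Bool) (x y : α) : ite' c x y = if c = true then x else y := by
  cases c <;> rfl

theorem at_cut {u s : ℕ} (h : At x i c) (hi : i < len p u s * blk p) : At (cut p u s x) i c := by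
  rw [cut]
  generalize len p u s = m at hi ⊢
  rcases m with _ | m
  · omega
  · exact h.and ((bit_ones _ _).2 hi)

theorem at_cut0 (u s : ℕ) (h : At x i 0) : At (cut p u s x) i 0 := by
  rw [cut]
  rcases len p u s with _ | m
  · exact at_zero i
  · cases hm : (msk p m).testBit i
    · exact at_and_zero x hm
    · exact h.and hm

/-- the place of an entry -/
def plc (p : Pm) (B w b e : ℕ) : ℕ := e + p.bb * (b + p.nb * (w + p.nw * B))

theorem plc_lt {B e n : ℕ} (hw : w < p.nw) (hb : b < p.nb) (he : e < p.bb) (hB : B < n) :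
    plc p B w b e < n * blk p := by
  have h := lt_mul_of (lt_mul_of (lt_mul_of hB hw) hb) he
  rwa [show p.bb * (p.nb * (p.nw * n)) = n * blk p by rw [blk_eq, mb_eq]; ring] at h

theorem psn_eq (V E : Q4) : psn p V w b E = plc p (top p (vv V) - V.2.1) w b E.2.1 := by
  rw [psn, plc, blk_eq, mb_eq]
  ring

/-- the arrays of the monomials without `t_1` -/
def X2 (p : Pm) (S : Q4 → Prop) (w b dw db : ℕ) (val : Q4 → Q4 → Q4 → Q4 → ZMod 3) : Prop :=
  ∀ g4 g3 g2, Rep p S w b dw db (x2 p g4 g3 g2) (40 * g4 + 13 * g3 + 4 * g2) (val (0, g2, g3, g4))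

/-- the recurrence for the first generator -/
def S1 (val : Q4 → Q4 → Q4 → Q4 → ZMod 3) : Prop :=
  ∀ g1 g2 g3 g4 V e f, V.1 < 3 → val (g1 + 1, g2, g3, g4) V (e, 0, 0, 0) (f, 0, 0, 0) =
    val (g1, g2, g3, g4) V (e + 1, 0, 0, 0) (f, 0, 0, 0) +
      val (g1, g2, g3, g4) V (e, 0, 0, 0) (f + 1, 0, 0, 0)

theorem at_ins0 (x : P) {g g' : ℕ} (hg : g < p.bb) (hg' : g' < p.bb) (h : g' ≠ g) (k : ℕ) :
    At ((x.and (colM p)).shl g) (g' + p.bb * k) 0 := by
  rcases lt_or_ge (g' + p.bb * k) g with h1 | h1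
  · exact at_shl_zero _ h1
  · rw [← Nat.add_sub_cancel' h1]
    refine (at_and_zero x ?_).shl g
    rcases lt_or_gt_of_ne h with h | h
    · rcases k with _ | k
      · omega
      · rw [show g' + p.bb * (k + 1) - g = g' + p.bb - g + p.bb * k by rw [mul_add]; omega,
          colM_bit k (by omega), decide_eq_false (show ¬ g' + p.bb - g = 0 by omega),
          Bool.and_false]
    · rw [show g' + p.bb * k - g = g' - g + p.bb * k by omega, colM_bit k (by omega),
        decide_eq_false (show ¬ g' - g = 0 by omega), Bool.and_false]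

theorem acc_succ (g4 g3 n s : ℕ) : (acc p g4 g3 (n + 1)).f s = cut p (40 * g4 + 13 * g3 + n) s
    (if n % 4 = 0 then (((acc p g4 g3 n).f s).add ((acc p g4 g3 n).f (s + 262144))).add
      ((((x2 p g4 g3 (n / 4)).f s).and (colM p)).shl (n / 4))
    else ((acc p g4 g3 n).f s).add ((acc p g4 g3 n).f (s + 262144))) := by
  change cut p _ s (ite' (Nat.beq (n &&& 3) 0) (P.add _ (ins p g4 g3 s (n >>> 2))) _) = _
  rw [ite'_eq, show n &&& 3 = n % 4 from Nat.and_two_pow_sub_one_eq_mod n 2,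
    Nat.shiftRight_eq_div_pow]
  simp only [Nat.beq_eq]
  rfl

theorem acc_zero (g4 g3 k : ℕ) {g n : ℕ} (hg : g < p.bb) (hn : n ≤ 4 * g) (s : ℕ) :
    At ((acc p g4 g3 n).f s) (g + p.bb * k) 0 := by
  induction n generalizing s with
  | zero => exact at_zero _
  | succ n ih =>
    have h := (ih (by omega) s).add (ih (by omega) (s + 262144))
    rw [acc_succ]
    refine at_cut0 _ _ ?_
    split_ifs
    · simpa only [add_zero] using h.add (at_ins0 _ (by omega) hg (by omega) k)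
    · simpa only [add_zero] using h

/-- the code of the arrays -/
def cs (V : Q4) (j : ℕ) : ℕ := 134217728 * vv V + 262144 * j

theorem cod_eq (V : Q4) (e f dw : ℕ) : cod V (e, 0, 0, 0) (f, 0, 0, 0) dw = cs V (dw + f) := by
  simp only [cod, ff, mm, wt4, cs]
  omega

variable {val : Q4 → Q4 → Q4 → Q4 → ZMod 3}

theorem acc_val (hp : WF p) (hs : Sd p w b dw db) (h1 : S1 val) (hS : ∀ f, S (f, 0, 0, 0))
    (hX : X2 p S w b dw db val) {V : Q4} (hV : V.1 < 3) (hT : wt4 V + db ≤ p.tt)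
    (g4 g3 g2 g1 e f : ℕ) (h : wt4 V + db = dw + (40 * g4 + 13 * g3 + (4 * g2 + g1)) + e + f) :
    At ((acc p g4 g3 (4 * g2 + g1 + 1)).f (cs V (dw + f)))
      (plc p (top p (vv V) - V.2.1) w b g2) (val (g1, g2, g3, g4) V (e, 0, 0, 0) (f, 0, 0, 0)) := by
  have h2 := hs.bb
  induction g1 generalizing e f with
  | zero =>
    have h3 := row_lt (E := (e, 0, 0, 0)) (F := (f, 0, 0, 0)) hp hs hV hT h
    have h4 := hX g4 g3 g2 V (e, 0, 0, 0) (f, 0, 0, 0) (hS f) hV hT h
    have h5 := top_le p (vv V)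
    have hg : g2 < p.bb := by omega
    rw [cod_eq] at h3 h4
    rw [psn_eq, plc, show (e, 0, 0, 0).2.1 = 0 from rfl] at h4
    rw [acc_succ, if_pos (by omega), show 4 * g2 / 4 = g2 by omega]
    refine at_cut ?_ (plc_lt hs.hw hs.hb hg h3.2)
    have h6 := (h4.and (m := colM p) (by
      rw [colM_bit _ (by omega), decide_eq_true rfl, Bool.and_true, decide_eq_true_iff, mul_assoc]
      exact lt_mul_of (lt_mul_of (by omega) hs.hw) hs.hb)).shl g2
    rw [zero_add] at h6
    have h7 := ((acc_zero g4 g3 _ hg le_rfl (cs V (dw + f))).add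
      (acc_zero g4 g3 _ hg le_rfl (cs V (dw + f) + 262144))).add h6
    rwa [zero_add, zero_add] at h7
  | succ g1 ih =>
    have h3 := row_lt (E := (e, 0, 0, 0)) (F := (f, 0, 0, 0)) hp hs hV hT h
    have hg : g2 < p.bb := by omega
    have h4 := (ih (e + 1) f (by omega)).add (ih e (f + 1) (by omega))
    rw [← h1 _ _ _ _ _ _ _ hV, show cs V (dw + (f + 1)) = cs V (dw + f) + 262144 by
      rw [cs, cs]; omega] at h4
    rw [cod_eq] at h3
    rw [acc_succ]
    refine at_cut ?_ (plc_lt hs.hw hs.hb hg h3.2)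
    split_ifs
    · exact add_zero (val _ V _ _) ▸ h4.add (at_ins0 _ (by omega) hg (by omega) _)
    · exact h4

theorem orR_bit {f : ℕ → ℕ} {n i q : ℕ} (hi : i < n) (h : (orR f n).testBit q = false) :
    (f i).testBit q = false := by
  induction hi with
  | refl => exact (Bool.or_eq_false_iff.1 ((Nat.testBit_or _ _ _).symm.trans h)).2
  | step _ ih => exact ih (Bool.or_eq_false_iff.1 ((Nat.testBit_or _ _ _).symm.trans h)).1

theorem orR_zero {f : ℕ → ℕ} {n i : ℕ} (h : orR f n = 0) (hi : i < n) : f i = 0 :=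
  Nat.zero_of_testBit_eq_false fun q => orR_bit hi (by rw [h, Nat.zero_testBit])

theorem wf_of_pre (h : pre p = 0) : WF p := by
  have h1 := (Nat.add_eq_zero_iff.1 h).1
  change p.nw + 1 - mb p + (p.tt - 100) = 0 at h1
  exact ⟨by omega, by omega⟩

theorem sd_of_pre (h : pre p = 0) (hw : w < p.nw) (hb : b < p.nb) :
    Sd p w b (byte p.dlo (p.w0 + w)) (byte p.dup (p.b0 + b)) := by
  obtain ⟨h3, h4⟩ := Nat.add_eq_zero_iff.1 (Nat.add_eq_zero_iff.1 h).2
  have h5 := orR_zero h3 hw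
  have h6 := orR_zero h4 hb
  change p.tt + 1 - (byte p.dlo (p.w0 + w) + 4 * p.bb) = 0 at h5
  change byte p.dup (p.b0 + b) - p.d2 + (p.tt - (byte p.dup (p.b0 + b) + p.t0)) = 0 at h6
  exact ⟨hw, hb, by omega, by omega, by omega⟩

/-- **what the check of one system of exponents says** -/
theorem of_chkV (hdw : dw = byte p.dlo (p.w0 + w)) (hdb : db = byte p.dup (p.b0 + b)) (hp : WF p)
    (hs : Sd p w b dw db) (h1 : S1 val) (hS : ∀ f, S (f, 0, 0, 0)) (hX : X2 p S w b dw db val)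
    {V G : Q4} (hV : V.1 < 3) (h : chkV p (vv V) = 0) (h2 : wt4 V + db ≤ p.tt)
    (h3 : wt4 G + dw = wt4 V + db) : val G V 0 0 = 0 := by
  obtain ⟨g1, g2, g3, g4⟩ := G
  have h7 := hp.tt
  have h8 := hs.bb
  have h4 : wt4 V ≤ 100 := by omega
  change g1 + 4 * g2 + 13 * g3 + 40 * g4 + dw = _ at h3
  have h5 := (row_lt (u := 0) (E := (wt4 V + db - dw, 0, 0, 0)) (F := 0) hp hs hV h2 (by
    change _ = dw + 0 + (wt4 V + db - dw) + 0
    omega)).1
  change orR (fun w => orR (fun b => orR (fun B => ck1 p (vv V) B w b) (top p (vv V) + 1)) p.nb)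
    p.nw = 0 at h
  have h6 := orR_zero h hs.hw
  replace h6 := orR_zero h6 hs.hb
  replace h6 := orR_zero h6 (show top p (vv V) - V.2.1 < top p (vv V) + 1 by omega)
  change ck2 p (vv V) _ w b (vA (vv V) + wCD (vv V) + 4 * (top p (vv V) - (top p (vv V) - V.2.1)) +
    byte p.dup (p.b0 + b)) (byte p.dlo (p.w0 + w)) = 0 at h6
  rw [(v_dec hV h4).1, wCD_vv hV h4, ← hdw, ← hdb,
    show V.1 + (13 * V.2.2.1 + 40 * V.2.2.2) + 4 * (top p (vv V) - (top p (vv V) - V.2.1)) =
      wt4 V by rw [wt4]; omega, ck2, ite'_eq, if_pos (by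
        rw [Bool.and_eq_true, Nat.ble_eq, Nat.ble_eq]; omega)] at h6
  refine (acc_val hp hs h1 hS hX hV h2 g4 g3 g2 g1 0 0 (by omega)).eq_zero ?_
  have h10 : (ck3 p (top p (vv V) - V.2.1) w b (cs V dw) (wt4 V + db - dw)).testBit g2 = false :=
    (congrArg (·.testBit g2) h6).trans (Nat.zero_testBit _)
  change ((nz p _ _ >>> ((((top p (vv V) - V.2.1) * p.nw + w) * p.nb + b) * p.bb)) &&&
    ones p.bb).testBit g2 = false at h10
  rw [Nat.testBit_and, ones_bit, decide_eq_true (show g2 < p.bb by omega), Bool.and_true,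
    Nat.testBit_shiftRight, show (((top p (vv V) - V.2.1) * p.nw + w) * p.nb + b) * p.bb + g2 =
      plc p (top p (vv V) - V.2.1) w b g2 by rw [plc]; ring] at h10
  change (orR (fun g4 => orR (fun g3 => nz1 p g4 g3 _ (_ + 1 - u0 g4 g3)) 8) 3).testBit _ = false
    at h10
  have h11 := orR_bit (show g4 < 3 by omega) h10
  replace h11 := orR_bit (show g3 < 8 by omega) h11
  change (sup ((acc p g4 g3 (wt4 V + db - dw + 1 - (40 * g4 + 13 * g3))).f _)).testBit _ = false
    at h11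
  rwa [show wt4 V + db - dw + 1 - (40 * g4 + 13 * g3) = 4 * g2 + g1 + 1 by omega] at h11

theorem pre_of_okK {a : Bs} {g : Gp} (h : okK a g = true) : pre (mkP a g) = 0 :=
  (Nat.add_eq_zero_iff.1 (Nat.eq_of_beq_eq_true h)).1

/-- **what the check of a group says** -/
theorem of_okK {a : Bs} {g : Gp} (h : okK a g = true) (hw : w < g.nw) (hb : b < g.nb) (h1 : S1 val)
    (hS : ∀ f, S (f, 0, 0, 0))
    (hX : X2 (mkP a g) S w b (byte a.dlo (g.w0 + w)) (byte a.dup (g.b0 + b)) val) {V G : Q4}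
    (hV : V.1 < 3) (hv : g.v = 4 * V.2.2.1 + 32 * V.2.2.2)
    (h2 : wt4 V + byte a.dup (g.b0 + b) ≤ a.tt)
    (h3 : wt4 G + byte a.dlo (g.w0 + w) = wt4 V + byte a.dup (g.b0 + b)) : val G V 0 0 = 0 := by
  have h4 := orR_zero (Nat.add_eq_zero_iff.1 (Nat.eq_of_beq_eq_true h)).2 hV
  change chkV (mkP a g) (g.v + V.1) = 0 at h4
  rw [show g.v + V.1 = vv V by rw [hv, vv]; omega] at h4
  exact of_chkV (p := mkP a g) rfl rfl (wf_of_pre (pre_of_okK h)) (sd_of_pre (pre_of_okK h) hw hb)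
    h1 hS hX hV h4 h2 h3

/-- all groups of a list pass the check -/
def AllK (a : Bs) : List Gp → Prop
  | [] => True
  | g :: l => okK a g = true ∧ AllK a l

theorem AllK.mem {a : Bs} : ∀ {l : List Gp}, AllK a l → ∀ g ∈ l, okK a g = true
  | [], _, _, hg => absurd hg List.not_mem_nil
  | _ :: _, h, g, hg => (List.mem_cons.1 hg).elim (fun e => e ▸ h.1) (AllK.mem h.2 g)

theorem AllK.append {a : Bs} : ∀ {l l' : List Gp}, AllK a l → AllK a l' → AllK a (l ++ l')
  | [], _, _, h => h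
  | _ :: _, _, h, h' => ⟨h.1, AllK.append h.2 h'⟩

/-- the groups cover all exponents of `v_3`, `v_4` and all pairs of generators -/
def cov (gs : List Gp) (n n' dlo dup T : ℕ) : Bool :=
  (List.range 8).all fun c => (List.range 3).all fun d =>
    (List.range n).all fun w => (List.range n').all fun b =>
      Nat.blt T (13 * c + 40 * d + byte dup b) || Nat.blt T (byte dlo w) ||
      (gs.filter fun g => Nat.beq g.v (4 * c + 32 * d)).any fun g =>
        Nat.ble g.w0 w && Nat.blt w (g.w0 + g.nw) && Nat.ble g.b0 b && Nat.blt b (g.b0 + g.nb)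

/-- **what the checks of all groups say** -/
theorem of_allK {a : Bs} {gs : List Gp} {n n' : ℕ} (h : AllK a gs)
    (hc : cov gs n n' a.dlo a.dup a.tt = true) (hT : a.tt ≤ 100) (hw : w < n) (hb : b < n')
    (h1 : S1 val) (hS : ∀ f, S (f, 0, 0, 0)) (hX : ∀ g w' b', w = g.w0 + w' → b = g.b0 + b' →
      WF (mkP a g) → Sd (mkP a g) w' b' (byte a.dlo w) (byte a.dup b) →
        X2 (mkP a g) S w' b' (byte a.dlo w) (byte a.dup b) val) {V G : Q4} (hV : V.1 < 3)
    (h2 : wt4 V + byte a.dup b ≤ a.tt) (h3 : wt4 G + byte a.dlo w = wt4 V + byte a.dup b) :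
    val G V 0 0 = 0 := by
  simp only [cov, List.all_eq_true, List.mem_range, Bool.or_eq_true, Nat.blt_eq, List.any_eq_true,
    List.mem_filter, Bool.and_eq_true, Nat.ble_eq, Nat.beq_eq] at hc
  have h4 := h2
  rw [wt4] at h4
  rcases hc V.2.2.1 (by omega) V.2.2.2 (by omega) w hw b hb with (h5 | h5) |
    ⟨g, ⟨g1, g2⟩, ⟨⟨g3, g4⟩, g5⟩, g6⟩
  · omega
  · omega
  · obtain ⟨w, rfl⟩ := Nat.exists_eq_add_of_le g3
    obtain ⟨b, rfl⟩ := Nat.exists_eq_add_of_le g5
    have h6 := h.mem g g1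
    exact of_okK h6 (by omega) (by omega) h1 hS (hX g w b rfl rfl (wf_of_pre (pre_of_okK h6))
      (sd_of_pre (pre_of_okK h6) (show w < g.nw by omega) (show b < g.nb by omega))) hV g2 h2 h3

end Vale.Agent.P236JR

end
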