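import Vale.Agent.P236JR.St
import Vale.Agent.P236JF.Form

/-!
# P236JR / Row : the rows modulo `v_1 ^ 3`
-/

noncomputable section

namespace Vale.Agent.P236JR

open MvPolynomial Vale.Agent.P236EL Vale.Agent.P236KE Vale.Agent.P236K2 Vale.Agent.P236K3
open Vale.Agent.P236JF

/-- lists of terms: coefficient, bound, shift, code -/
inductive TJ : Type
  | nil : TJ
  | cons : Nat → Nat → Nat → Nat → TJ → TJ

def tj4 (ih : TJ) (c a p x : Nat) : TJ := TJ.cons c a p x ih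
def tj3 (k : Nat) (τ : DT) (ih : TJ) (c a p : Nat) : TJ :=
  force (Nat.add (Nat.add (Nat.add τ.x.1 (Nat.mul (nat_lit 388) τ.x.2.1)) (Nat.mul k τ.x.2.2.1)) a)
    (tj4 ih c a p)
def tj2 (k : Nat) (τ : DT) (ih : TJ) (c a : Nat) : TJ :=
  force (Nat.add (Nat.mul (nat_lit 3) τ.v.2.2.1) τ.v.2.2.2) (tj3 k τ ih c a)
def tj1 (k : Nat) (τ : DT) (ih : TJ) (c : Nat) : TJ :=
  force (Nat.mul (nat_lit 128) τ.v.1) (tj2 k τ ih c)
def tj0 (k : Nat) (τ : DT) (_ : List DT) (ih : TJ) : TJ := force τ.c (tj1 k τ ih)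
/-- the terms of a list -/
def mkTJ (k : Nat) (l : List DT) : TJ := List.rec (motive := fun _ => TJ) TJ.nil (tj0 k) l

def lj3 (g : Fn) (co p : Nat) (ih : P) (x : Nat) : P := P.add (P.shl (P.sm co (g.f x)) p) ih
def lj2 (g : Fn) (c r co a p x : Nat) (_ : TJ) (ih : P) : P :=
  Bool.rec (motive := fun _ => P) (force (Nat.add c x) (lj3 g co p ih)) ih
    (Nat.ble (nat_lit 384) (Nat.add r a))
def lj1 (ts : TJ) (g : Fn) (c r : Nat) : P := TJ.rec (motive := fun _ => P) P.zero (lj2 g c r) ts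
def lj0 (ts : TJ) (g : Fn) (c : Nat) : P := force (Nat.mod c (nat_lit 384)) (lj1 ts g c)
/-- one level -/
def lvJ (ts : TJ) (_ : Nat) (g : Fn) : Fn := ⟨lj0 ts g⟩

/-- the cube of a term -/
def cb (τ : DT) : DT := ⟨τ.c, (3 * τ.v.1, 3 * τ.v.2.1, 3 * τ.v.2.2.1, 3 * τ.v.2.2.2),
  (3 * τ.x.1, 3 * τ.x.2.1, 3 * τ.x.2.2.1, 3 * τ.x.2.2.2), τ.y⟩

/-- the cube of the right unit of `v_3` -/
def ej3c : List DT :=
  [⟨1, (0, 0, 3, 0), (0, 0, 0, 0), (0, 0, 0, 0)⟩, ⟨1, (0, 3, 0, 0), (27, 0, 0, 0), (0, 0, 0, 0)⟩,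
    ⟨2, (0, 9, 0, 0), (3, 0, 0, 0), (0, 0, 0, 0)⟩]

def pj3 (k : Nat) (Y : Fn) (e4 d0 d1 d2 : Nat) : Fn :=
  it (lvJ (mkTJ k ej2)) (it (lvJ (mkTJ k ej3)) (it (lvJ (mkTJ k ej3c))
    (it (lvJ (mkTJ k ej4)) Y e4) d2) d1) d0
def pj2 (k : Nat) (Y : Fn) (e3 e4 d0 d1 : Nat) : Fn :=
  force (Nat.div e3 (nat_lit 3)) (pj3 k Y e4 d0 d1)
def pj1 (k : Nat) (Y : Fn) (e3 e4 d0 : Nat) : Fn :=
  force (Nat.mod e3 (nat_lit 3)) (pj2 k Y e3 e4 d0)
/-- the family of a monomial -/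
def pj (k : Nat) (Y : Fn) (e2 e3 e4 : Nat) : Fn :=
  force (Nat.mod e2 (nat_lit 3)) (pj1 k Y e3 e4)

def bs3 (L : LD) (g : Fn) (a W x : Nat) : P := mx L a W (g.f x)
def bs2 (L : LD) (g : Fn) (c a W : Nat) : P :=
  force (Nat.sub c (Nat.mul (nat_lit 128) a)) (bs3 L g a W)
def bs1 (L : LD) (g : Fn) (d c a : Nat) : P :=
  force (Nat.mod (Nat.add c d) (nat_lit 4)) (bs2 L g c a)
def bs0 (L : LD) (g : Fn) (d c : Nat) : P :=
  force (Nat.div (Nat.mod c (nat_lit 384)) (nat_lit 128)) (bs1 L g d c)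
/-- the products of the functionals with powers of `v_1` -/
def bsJ (L : LD) (g : Fn) (d : Nat) : Fn := ⟨bs0 L g d⟩

/-- families indexed by generators -/
structure Fm : Type where
  f : Nat → Fn

def rw0 (k : Nat) (Y : Fm) (c i e2 e3 e4 : Nat) : P := (pj k (Y.f i) e2 e3 e4).f c
/-- the rows -/
def rwJ (k : Nat) (Y : Fm) : Rw := ⟨rw0 k Y⟩

def fb1 (L L' : LD) (Y : Fm) (i : Nat) : Fn := force (L.dg i) (bsJ L' (Y.f i))
/-- the base families -/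
def fbJ (L L' : LD) (Y : Fm) : Fm := ⟨fb1 L L' Y⟩

variable {G G' : Type} [Fintype G] [Fintype G'] {L L' : LD} {ix : G → ℕ} {ix' : G' → ℕ}
  {y : G → Mo → A} {s3 s4 m : ℕ} {h : Γ} {g : Fn}

theorem pa_C (M : Mo) (g : Γ) : pa L ix y (C (monomial M 1) * g) =
    sh (pl M) (cq L ix (fun J => M 0 + J 0 < 3) (Z y g)) := by
  rw [pa_apply, ← smul_eq_C_mul, map_smul]
  exact cq_mul _ M _

theorem xv_pow (i e : ℕ) : xv i ^ e = C (monomial (Finsupp.single i e) 1) := by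
  rw [xv, ← map_pow, X_pow_eq_monomial]

theorem pa_v1 (a : ℕ) (g : Γ) : pa L ix y (xv 0 ^ a * g) = cq L ix (lo (3 - a)) (Z y g) := by
  rw [xv_pow, pa_C, pl_0, sh_zero]
  exact cq_congr fun _ _ _ => by rw [lo, Finsupp.single_eq_same]; omega

theorem pa_v2 (e : ℕ) (g : Γ) : pa L ix y (xv 1 ^ e * g) = pa L ix y g := by
  rw [xv_pow, pa_C, pl_1, sh_zero]
  exact cq_congr fun _ _ _ => by rw [lo, Finsupp.single_eq_of_ne (by omega), zero_add]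

theorem pa_zero {g : Γ} (hg : g ∈ (Jr K 3).map C) : pa L ix y g = 0 :=
  cq_eq_zero fun _ J hJ => not_lt.2 (mem_Jr.1 (rAp_mem (mem_map_C_iff.1 hg)) J hJ)

theorem pa_nat (e : ℕ) (g : Γ) : pa L ix y (e * g) = (e : K) • pa L ix y g := by
  rw [← nsmul_eq_mul, map_nsmul, Nat.cast_smul_eq_nsmul]

theorem pa_term (τ : DT) (F : Mo) (a : ℕ) (h : Γ) :
    pa L ix y (xv 0 ^ a * (monomial F 1 * (τ.ev1 K * h))) = sh (3 * τ.v.2.2.1 + τ.v.2.2.2)
      ((τ.c : K) • pa L ix y (xv 0 ^ (a + τ.v.1) * (monomial (F + m4 τ.x) 1 * h))) := by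
  have h1 : xv 0 ^ a * (monomial F 1 * (τ.ev1 K * h)) = (τ.c : Γ) * (C (monomial
      (mk4 0 τ.v.2.1 τ.v.2.2.1 τ.v.2.2.2) 1) *
        (xv 0 ^ (a + τ.v.1) * (monomial (F + m4 τ.x) 1 * h))) := by
    have h2 := monomial_m4 (A := K) (0, τ.v.2.1, τ.v.2.2.1, τ.v.2.2.2) 1
    have h3 := monomial_m4 (A := A) τ.x 1
    change monomial (mk4 0 τ.v.2.1 τ.v.2.2.1 τ.v.2.2.2) 1 = _ at h2
    rw [ev1_xv, h2, ← one_mul (1 : A), ← monomial_mul, h3]
    simp only [map_mul, map_pow, map_one, xv]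
    ring
  rw [h1, pa_nat, pa_C, map_smul, pl, mk4_2, mk4_3, mk4_0]
  simp only [zero_add]
  rfl

theorem cd_m4 {e : Q4} (h : e.2.2.2 = 0) :
    cd s3 s4 (m4 e) = e.1 + 388 * e.2.1 + (13 + 384 * s3) * e.2.2.1 := by
  rw [cd, wtM, wt_m4, m4_1, m4_2, m4_3, wt4, h]
  ring

theorem FamJ.lv (hL : L.T < 120) (H : FamJ L ix y s3 s4 m h g) {l : List DT} {k : ℕ}
    (hl : ∀ τ ∈ l, wt4 τ.x ≤ k ∧ τ.x.2.2.2 = 0) (j : ℕ) : FamJ L ix y s3 s4 (m + k)
      ((l.map (DT.ev1 K)).sum * h) (lvJ (mkTJ (13 + 384 * s3) l) j g) := fun F a ha hF => by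
  change (lj1 _ g _ ((cd s3 s4 F + 128 * a) % 384)).R _
  rw [show (cd s3 s4 F + 128 * a) % 384 = wtM F + 128 * a by rw [cd]; omega]
  induction l with
  | nil =>
    rw [List.map_nil, List.sum_nil, zero_mul, mul_zero, mul_zero, map_zero]
    exact P.R_zero
  | cons τ l ih =>
    have h1 := ih fun τ h => hl τ (List.mem_cons_of_mem _ h)
    obtain ⟨h2, h3⟩ := hl τ List.mem_cons_self
    rw [List.map_cons, List.sum_cons, add_mul, mul_add, mul_add, map_add, pa_term]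
    change P.R (Bool.rec (motive := fun _ => P) (lj3 g τ.c (3 * τ.v.2.2.1 + τ.v.2.2.2) _
      (cd s3 s4 F + 128 * a + (τ.x.1 + 388 * τ.x.2.1 + (13 + 384 * s3) * τ.x.2.2.1 + 128 * τ.v.1)))
      _ (Nat.ble 384 (wtM F + 128 * a + 128 * τ.v.1))) _
    cases h4 : Nat.ble 384 (wtM F + 128 * a + 128 * τ.v.1) with
    | true =>
      have h5 := Nat.le_of_ble_eq_true h4
      rw [pa_v1, show 3 - (a + τ.v.1) = 0 by omega,
        cq_eq_zero (S := lo 0) fun _ _ _ => Nat.not_lt_zero _, smul_zero, map_zero, zero_add]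
      exact h1
    | false =>
      have h5 : ¬ 384 ≤ wtM F + 128 * a + 128 * τ.v.1 := fun h => by
        rw [Nat.ble_eq_true_of_le h] at h4
        cases h4
      have h6 := H (F + m4 τ.x) (a + τ.v.1) (by omega) (by
        rw [wtM, map_add, wt_m4]
        change wtM F + _ + _ ≤ _
        omega)
      rw [cd_add, cd_m4 h3, show ∀ x, cd s3 s4 F + x + 128 * (a + τ.v.1) =
        cd s3 s4 F + 128 * a + (x + 128 * τ.v.1) from fun x => by ring] at h6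
      exact ((P.R.sm _ fun _ => h6).shl _).add h1

theorem FamJ.iter (hL : L.T < 120) (H : FamJ L ix y s3 s4 m h g) {l : List DT} {k : ℕ}
    (hl : ∀ τ ∈ l, wt4 τ.x ≤ k ∧ τ.x.2.2.2 = 0) (e : ℕ) : FamJ L ix y s3 s4 (m + k * e)
      ((l.map (DT.ev1 K)).sum ^ e * h) (it (lvJ (mkTJ (13 + 384 * s3) l)) g e) := by
  induction e with
  | zero => simpa [it] using H
  | succ e ih =>
    rw [pow_succ', mul_assoc, mul_add, mul_one, ← add_assoc]
    exact ih.lv hL hl e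

theorem FamJ.mono (H : FamJ L ix y s3 s4 m h g) {m' : ℕ} (hm : m ≤ m') :
    FamJ L ix y s3 s4 m' h g := fun F a ha hF => H F a ha (by omega)

/-- the approximation of the right unit of a monomial -/
def aJ (e2 e3 e4 : ℕ) : Γ := (ej2.map (DT.ev1 K)).sum ^ (e2 % 3) *
  ((ej3.map (DT.ev1 K)).sum ^ (e3 % 3) * ((ej3c.map (DT.ev1 K)).sum ^ (e3 / 3) *
    ((ej4.map (DT.ev1 K)).sum ^ e4 * 1)))

theorem FamJ.pj (hL : L.T < 120) {Y : Fn} (H : FamJ L ix y s3 s4 m 1 Y) (e2 e3 e4 : ℕ) :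
    FamJ L ix y s3 s4 (m + (4 * e2 + 13 * e3 + 40 * e4)) (aJ e2 e3 e4)
      (pj (13 + 384 * s3) Y e2 e3 e4) :=
  ((((H.iter hL (l := ej4) (k := 40) (by decide) e4).iter hL (l := ej3c) (k := 39) (by decide)
    (e3 / 3)).iter hL (l := ej3) (k := 13) (by decide) (e3 % 3)).iter hL (l := ej2) (k := 4)
    (by decide) (e2 % 3)).mono (by omega)

variable [Fact (Nat.Prime 3)]

theorem eta_aJ (a e2 e3 e4 : ℕ) : etaR 3 K (monomial (mk4 a e2 e3 e4) 1) -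
    xv 0 ^ a * (xv 1 ^ (3 * (e2 / 3)) * aJ e2 e3 e4) ∈ (Jr K 3).map C := by
  have h1 := monomial_m4 (A := K) (a, e2, e3, e4) 1
  rw [C_1, one_mul] at h1
  change monomial (mk4 a e2 e3 e4) 1 = X 0 ^ a * X 1 ^ e2 * X 2 ^ e3 * X 3 ^ e4 at h1
  have he : ∀ n < 4, Ideal.Quotient.mk ((Jr K 3).map C) (etaR 3 K (X n)) =
      Ideal.Quotient.mk _ ((elsJ n).map (DT.ev1 K)).sum := fun n hn =>
    Ideal.Quotient.eq.2 (mem_map_C_iff.2 ((formJ K).eta n hn))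
  have h0 : ∀ z, xv 0 ^ 3 * z ∈ (Jr K 3).map C := fun z => Ideal.mul_mem_right _ _ (by
    rw [xv, ← map_pow]
    exact Ideal.mem_map_of_mem _ (Ideal.subset_span (Set.mem_insert_of_mem _ rfl)))
  have h2 : Ideal.Quotient.mk ((Jr K 3).map C) ((ej2.map (DT.ev1 K)).sum ^ 3) =
      Ideal.Quotient.mk _ (xv 1 ^ 3) := Ideal.Quotient.eq.2 (by
    rw [show (ej2.map (DT.ev1 K)).sum = xv 1 + xv 0 * X 0 ^ 3 by simp [ej2, ev1_xv],
      add_pow_char, add_sub_cancel_left, mul_pow]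
    exact h0 _)
  have h3 : Ideal.Quotient.mk ((Jr K 3).map C) ((ej3.map (DT.ev1 K)).sum ^ 3) =
      Ideal.Quotient.mk _ (ej3c.map (DT.ev1 K)).sum := Ideal.Quotient.eq.2 (by
    rw [show (ej3.map (DT.ev1 K)).sum = xv 2 + xv 1 * X 0 ^ 9 + 2 * (xv 1 ^ 3 * X 0) +
        xv 0 * (X 1 ^ 3 + 2 * xv 0 * xv 1 ^ 2 * X 0 ^ 3) by
          simp only [ej3, List.map, List.sum_cons, List.sum_nil, ev1_xv]; push_cast; ring,
      show (ej3c.map (DT.ev1 K)).sum = xv 2 ^ 3 + (xv 1 * X 0 ^ 9) ^ 3 +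
        (2 * (xv 1 ^ 3 * X 0)) ^ 3 by
          simp only [ej3c, List.map, List.sum_cons, List.sum_nil, ev1_xv]
          push_cast
          linear_combination (-2 * xv 1 ^ 9 * X 0 ^ 3) * three_Γ,
      add_pow_char, add_pow_char, add_pow_char, add_sub_cancel_left, mul_pow]
    exact h0 _)
  rw [← Ideal.Quotient.eq, h1, aJ]
  simp only [map_mul, map_pow, pow_mul, eta_0, he 1 (by omega), he 2 (by omega), he 3 (by omega),
    map_one]
  rw [map_pow] at h2 h3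
  rw [← map_pow, ← map_pow (Ideal.Quotient.mk _) (xv 1), ← h2, ← h3]
  conv_lhs => rw [← Nat.mod_add_div e2 3, ← Nat.mod_add_div e3 3]
  simp only [pow_add, pow_mul, map_pow]
  rw [show elsJ 1 = ej2 from rfl, show elsJ 2 = ej3 from rfl, show elsJ 3 = ej4 from rfl]
  ring

omit [Fact (Nat.Prime 3)] in
theorem Fam0.bs (hL : L.Ok ix) {d : ℕ} (hy : ∀ w, HomR 3 ((d : ℤ) - L.dg (ix w)) (y w))
    (H : Fam0 L ix y s3 s4 d g) : FamJ L ix y s3 s4 d 1 (bsJ L g d) := fun F a ha hF => by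
  have h1 := hL.hT
  change (mx L ((cd s3 s4 F + 128 * a) % 384 / 128) ((cd s3 s4 F + 128 * a + d) % 4)
    (g.f (cd s3 s4 F + 128 * a - 128 * ((cd s3 s4 F + 128 * a) % 384 / 128)))).R _
  rw [show (cd s3 s4 F + 128 * a) % 384 / 128 = a by rw [cd]; omega, Nat.add_sub_cancel, pa_v1,
    mul_one]
  refine mx_R hL hF (Z_hm hy (hg_mon F)) ha (by rw [cd]; omega) ((congrArg _ ?_).mpr (H F hF))
  exact congrArg _ (funext fun w => (rAp_monomial _ _ _ _).trans (one_mul _))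

omit [Fintype G] in
/-- **the rows from the base families** -/
theorem stJ_of {y : G → G' → Mo → A} (hL : L.Ok ix) (hL' : L'.Ok ix')
    (hy : ∀ w w', HomR 3 ((L.dg (ix w) : ℤ) - L'.dg (ix' w')) (y w w')) {Y : Fm}
    (H : ∀ w, FamJ L' ix' (y w) s3 s4 (L.dg (ix w)) 1 (Y.f (ix w))) [Fintype G] :
    StJ y L ix L' ix' s3 s4 (rwJ (13 + 384 * s3) Y) := by
  refine ⟨hL, hL', hy, fun F a w e2 e3 e4 ha hT => ?_⟩
  refine (congrArg _ ?_).mpr ((H w).pj hL'.hT e2 e3 e4 F a ha (by omega))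
  have h1 := pa_zero (L := L') (ix := ix') (y := y w)
    (Ideal.mul_mem_left _ (monomial F 1) (eta_aJ a e2 e3 e4))
  rw [mul_sub, map_sub, sub_eq_zero] at h1
  rw [dly_bv, ← pa_apply, h1, ← pa_v2 (3 * (e2 / 3)) (xv 0 ^ a * _)]
  exact congrArg _ (by ring)

/-- **the rows from the tabulated functionals** -/
theorem stJ_of0 {y : G → G' → Mo → A} (hL : L.Ok ix) (hL' : L'.Ok ix')
    (hy : ∀ w w', HomR 3 ((L.dg (ix w) : ℤ) - L'.dg (ix' w')) (y w w')) {Y : Fm}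
    (H : ∀ w, Fam0 L' ix' (y w) s3 s4 (L.dg (ix w)) (Y.f (ix w))) :
    StJ y L ix L' ix' s3 s4 (rwJ (13 + 384 * s3) (fbJ L L' Y)) :=
  stJ_of hL hL' hy fun w => (H w).bs hL' (hy w)

end Vale.Agent.P236JR

end
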