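import Vale.Agent.P236JR.Crd

/-!
# P236JR / St : families and rows modulo `v_1 ^ 3`
-/

noncomputable section

namespace Vale.Agent.P236JR

open MvPolynomial Vale.Agent.P236EL Vale.Agent.P236KE Vale.Agent.P236K2 Vale.Agent.P236K3
open Vale.Agent.P236JF

variable {G G' : Type} [Fintype G] [Fintype G'] {L L' : LD} {ix : G → ℕ} {ix' : G' → ℕ}

variable (L ix) in
/-- coordinates of the values modulo `v_1 ^ 3` -/
def pa (y : G → Mo → A) : Γ →+ V :=
  (cq L ix (lo 3)).toAddMonoidHom.comp (Z y).toAddMonoidHom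

theorem pa_apply (y : G → Mo → A) (g : Γ) : pa L ix y g = cq L ix (lo 3) (Z y g) := rfl

variable (L ix) in
/-- the family gives the coordinates of the multiples of `h`; the key contains the exponent of
`v_1` -/
def FamJ (y : G → Mo → A) (s3 s4 m : ℕ) (h : Γ) (g : Fn) : Prop := ∀ F a, a < 3 →
  wtM F + m ≤ L.T →
    (g.f (cd s3 s4 F + 128 * a)).R (pa L ix y (xv 0 ^ a * (monomial F 1 * h)))

variable (L ix) in
/-- the family gives the coordinates of the functionals -/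
def Fam0 (y : G → Mo → A) (s3 s4 d : ℕ) (g : Fn) : Prop := ∀ F, wtM F + d ≤ L.T →
  (g.f (cd s3 s4 F)).R (cq L ix (lo 3) fun w => y w F)

variable [Fact (Nat.Prime 3)]

/-- a step of a complex with its rows modulo `v_1 ^ 3` -/
structure StJ (y : G → G' → Mo → A) (L : LD) (ix : G → ℕ) (L' : LD) (ix' : G' → ℕ)
    (s3 s4 : ℕ) (r : Rw) : Prop where
  ok : L.Ok ix
  ok' : L'.Ok ix'
  hy : ∀ w w', HomR 3 ((L.dg (ix w) : ℤ) - L'.dg (ix' w')) (y w w')
  row : ∀ F a w e2 e3 e4, a < 3 → wtM F + (4 * e2 + 13 * e3 + 40 * e4) + L.dg (ix w) ≤ L'.T →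
    (r.f (cd s3 s4 F + 128 * a) (ix w) e2 e3 e4).R
      (cq L' ix' (lo 3) (dly y (monomial F 1) (bv w (mk4 a e2 e3 e4))))

omit [Fintype G] in
/-- the old rows only depend on the functionals modulo the cube of the ideal -/
theorem st_congr {y y' : G → G' → Mo → A} {s3 s4 : ℕ} {r : Rw} (h : St y L ix L' ix' s3 s4 r)
    (hy : ∀ w w', HomR 3 ((L.dg (ix w) : ℤ) - L'.dg (ix' w')) (y' w w'))
    (hd : ∀ w w' E, wtM E + L.dg (ix w) ≤ L'.T → y' w w' E - y w w' E ∈ I ^ 3) :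
    St y' L ix L' ix' s3 s4 r := by
  refine ⟨h.ok, h.ok', hy, fun F w e1 e2 e3 e4 hT => ?_⟩
  refine (congrArg _ ?_).mpr (h.row F w e1 e2 e3 e4 hT)
  have h1 : Hg (wtM F + wtM (mk4 e1 e2 e3 e4))
      (monomial F 1 * etaR 3 K (monomial (mk4 e1 e2 e3 e4) 1)) := (hg_mon F).mul
    (grPt_id.etax _ _ (isWeightedHomogeneous_monomial (wz 3) _ 1 (weight_cast _ _)))
  have h2 : monomial F 1 * etaR 3 K (monomial (mk4 e1 e2 e3 e4) 1) ∈
      (I ^ (e1 + e2 + e3 + e4)).map C := Ideal.mul_mem_left _ _ (inv_II.pow _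
    (Ideal.mem_map_of_mem _ (Ideal.pow_le_pow_right (by rw [lenM, weight_mk4]; omega)
      (monomial_one_mem_pow (mk4 e1 e2 e3 e4)))))
  rw [wtM, wtM, weight_wt_mk4] at h1
  generalize monomial F 1 * etaR 3 K (monomial (mk4 e1 e2 e3 e4) 1) = g at h1 h2
  rw [ps_apply, ps_apply, ← sub_eq_zero, ← map_sub]
  refine cr_eq_zero (n := e1 + e2 + e3 + e4 + 3) (fun w' => ?_) fun j hj h => by
    have := h.2; omega
  change rAp _ (y' w w') g - rAp _ (y w w') g ∈ _
  rw [rAp_eq, rAp_eq, ← Finset.sum_sub_distrib, pow_add]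
  refine Ideal.sum_mem _ fun E hE => ?_
  rw [← mul_sub]
  refine Ideal.mul_mem_mul (mem_map_C_iff.1 h2 E) (hd w w' E ?_)
  by_contra h3
  refine mem_support_iff.1 hE (WA_neg ?_ (h1 E))
  rw [show wz 3 = fun i => (wt 3 i : ℤ) from rfl, weight_cast]
  rw [wtM] at h3 hT
  omega

end Vale.Agent.P236JR

end
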